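import Vale.Agent.P237.Quant.TailData.N79.tailN79P1Base

/-!
Tail calibration tailN79P1 in dimension 79. A part of the intervals. Generated data, checked by the kernel.
-/

set_option maxRecDepth 100000
set_option linter.all false

namespace Vale.Agent.P237.Quant.TailData

open TailCert


/-- An interval. -/
noncomputable def tailN79P1I134 : Ival :=
  Decode.ival 0x1000000047ee58001000000400000011fb955673a8f959cea3e16126c26fd73d05d32b541548b50a74b1b042fa04c4e8f7c000012c8b2329638e7f196195e98fe7500000000000000007cb7cb7cb7cb7ca10000000000000000000000000000000000000200000000001001eb7fba3f6dadbbb210039d800000023ac18000800000200000008d3ac2b39d47c09ad770000000000000000000000000a42c929cec523ac235adfb76ad35d9c2c0297c04000000001214ccee144cc000034d46d004fe9c1180000000000d5d5c2516338000009d2a3196d62fb018000b81349313f97885ce40ff31e36f240a7e8506280000080000000000a80f6b0278403af0908600228c0000011307900400001000000440de935aee004331cc00000000000000000000adbd7e96217f794e95a967ee84bcbdc441b9000000ad92a1aa0b5b60038e00bacb3d2ee6b8000002010e37b748080001739b59526968f7800522f5be96991e698e0d33f937d84b95e52180000080000000000960d505a3bdbf5335983001f44000010a06d04000100000426bfd0c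c7319ab30000000000000000000dbbde401f674dbab45622d5432197d67040009b7d731120f3620f2e0e3ff9ad157740000dfb0177bb7cba0030fd888532d94c90097f1f4c82ee333320f64f28d1c5c31a7600000200000000002282c497f92e552660c64007350000041f6fc1000040000107d8819ab30545a60000000000000000017da38b3f5202ce4d11e627578b6fc8244004acbcd517ce3c58f69c07be4c2cd880000618d6dd09ce03c024a8557924e5606811f05323d488d9ad843991b867256ea9400000200000000002182c08cab5047ba47a8e00711000004187d8100004000010594b1516981388000000000000000001d60c6e048dce3b54f9c38adf9ec1652807eda1c1be96211fcbe975a7be8c1d600309bb4dde1ede002c58b872ebc07c505cc5aefd304bd438555a31a262e8bd10000010000000000100169ae68b983eca55690036d8000020492008000200000800000271000000000000000000000000000000000000000000000000000000000ce60c2f9139f097fb039fb7c7bd86e0088718da9439aca80000000000000000000000000000000000000000000000000000080000000000800b0f7054dd6261e43d801b6c00000fdbc304000100000400000000000270fe0000000000000000000000000000000000000000000000001abb476955d4b6bffbe531fa0c059634000000000000000000000000000000000000000000000000000000000000000000000000000000004005b0fe99535d399d64800db6004800001b002000000040000000280001fe940000000000000000fff3ff7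00000a1d8080095bc8687d08d8a71d000b0c000042a04000000200000002ff4a7e2d00000000000000003ffcffdc00002876020022933ce5938cc6bba8002b500001b081000000080000000bf169f03a0000000000000000fff3ff700000a1d808008fca84d4569013b33800ad4000097404000000200000002f81d788580000000000000003ffcffdc00002876020023bf3ad83183d0a280002b500002f701000000080000000bc42dd4fa0000000000000000fff3ff700000a1d808008f1427e3611ff15d8800ad40000fb204000000200000002ea7d69d780000000000000003ffcffdc0000287602002348257d48d9405198002b500008000100000008000000034ebdffff00008880271728d81f4cd0006d700e71001f05c80fe8d4a51000053201ad02d38800f9b5807c00300110418b60c0eeac46edf07dfffffffff9672610207ffffed7e06b02ff081000000b16be11496107fffff984c00e1e3840bd6fe358782c77701fdeb8b0c61f234f9e0fe00c0000097ff401150c747e8d856ec21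

/-- A part of the intervals. -/
noncomputable def tailN79P1L20 : List Ival :=
  [tailN79P1I134]

theorem tailN79P1L20_ok : tailN79P1Base.partUsed tailN79P1Used tailN79P1L20 = true := by
  decide +kernel

end Vale.Agent.P237.Quant.TailData
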